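import Vale.Agent.N250.Main

open Vale.Agent.N250 Vale.Agent.P250.S Vale.Agent.P250.H3 in
/-- (1) For `n ≥ 3` there is a counterexample on which the bounded holomorphic functions separate
points and tangent directions, while every bounded holomorphic map to `ℂⁿ` has a critical point.
(2) For `n ≥ 3` there are continuum many pairwise non-biholomorphic counterexamples. -/
theorem Vale.Agent.Results.P250.A0JacobianContinuum.result :
    (∀ n : ℕ, 3 ≤ n → ∃ M : Set (EuclideanSpace ℂ (Fin n)),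
      PinchedKaehler M ∧ SeparatesPoints M ∧
      (∀ p ∈ M, ∀ v, v ≠ 0 → ∃ f : EuclideanSpace ℂ (Fin n) → ℂ, DifferentiableOn ℂ f M ∧
        (∃ C : ℝ, ∀ x ∈ M, ‖f x‖ ≤ C) ∧ fderiv ℂ f p v ≠ 0) ∧
      (∀ F : EuclideanSpace ℂ (Fin n) → EuclideanSpace ℂ (Fin n), DifferentiableOn ℂ F M →
        (∃ C : ℝ, ∀ x ∈ M, ‖F x‖ ≤ C) → ∃ p ∈ M, ∃ v, v ≠ 0 ∧ fderiv ℂ F p v = 0) ∧
      ¬ BiholomorphicToBoundedDomain M) ∧
    (∀ n : ℕ, 3 ≤ n → ∃ M : ℝ → Set (EuclideanSpace ℂ (Fin n)),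
      (∀ s, PinchedKaehler (M s) ∧ ¬ BiholomorphicToBoundedDomain (M s)) ∧
      ∀ s t, s ≠ t → ¬ Biholomorphic (M s) (M t)) :=
  ⟨nondegenerate, continuum⟩
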