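import Vale.Agent.N250X.Main

open Vale.Agent.N250X in
/-- For `n ≥ 3` there is a simply connected open subset of `ℂⁿ` with a complete negatively pinched
Kaehler metric which is biholomorphic neither to an open set of finite volume nor to an open set
whose coordinates miss two values each; on it every holomorphic `L^p` function has a zero, and
every holomorphic map to `ℂⁿ` whose coordinates miss two values each, or whose differential is
bounded for the Kaehler metric, has a critical point. -/
theorem Vale.Agent.Results.P250.A0VolumePicard.result : ∀ n ≥ 3, Strong (Cn n) :=
  fun n hn => strong n hn
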